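import Vale.Agent.P201.Bd3.B4
import Vale.Agent.P201.Bd3.B3

/-! P186: a torsion-free word-hyperbolic group which is not residually finite. -/

theorem Vale.Agent.Results.P186.NonResiduallyFinite.result :
    ∃ (G : Type) (_ : Group G), (∀ g : G, ∀ m : ℕ, 0 < m → g ^ m = 1 → g = 1) ∧
      Vale.Agent.P186.IsHyperbolicGroup G ∧ ¬ Group.ResiduallyFinite G :=
  Vale.Agent.P186.Final.of_machine Vale.Agent.P201.S.stmtLoc Vale.Agent.P201.S.stmtGlob
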